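import Vale.Agent.P022S.Loc.Det2
import Vale.Agent.P022D.Loc2.Obj
import Vale.Agent.P022D.Loc.BC
import Vale.Agent.P022D.L2c.All

/-!
# P022S, block Loc: the blocks at two, at infinity and at the unipotent primes, with determination
-/

set_option linter.all false

noncomputable section

namespace Vale.Agent.P022S.Loc

open NumberField IsLocalRing
open Vale.Agent.P022 Vale.Agent.P022D Vale.Agent.P022S.R
open Vale.Agent.P027M.S (mx)
open Vale.Agent.P022D.Sel (M2)
open Vale.Agent.P022E.Loc (Pl)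

namespace B27

variable {O F : Type} [CommRing O] [Field F] {S : Dat O F} {A : Type} [CommRing A]

theorem nil_res (X : Obj S A) {a : A} (h : X.π a = 0) : IsNilpotent a :=
  haveI := X.fin
  (W.LR.of_finite X.π X.loc).isNilpotent h

theorem lres (X : Obj S A) (l : ℕ) (g : GQ) : (lr X l g).map X.π = mx S.rb g := by
  have h1 : (X.α l).map X.π * (X.β l).map X.π = 1 := by
    rw [← Matrix.map_mul, X.inv, Matrix.map_one _ (map_zero _) (map_one _)]
  rw [X.one, one_mul] at h1
  rw [lr_apply, Matrix.map_mul, Matrix.map_mul, h1, X.one, X.res, one_mul, mul_one]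

theorem ldet (X : Obj S A) (l : ℕ) (g : GQ) : (lr X l g).det = (X.ρ g).det := by
  have h := congrArg Matrix.det (X.inv l)
  rw [Matrix.det_mul, Matrix.det_one] at h
  rw [lr_apply, Matrix.det_mul, Matrix.det_mul]
  linear_combination (X.ρ g).det * h

theorem llc (X : Obj S A) (l : ℕ) : IsLocallyConstant (lr X l) :=
  (Loc2.lc_of_open X.ρ X.opn).comp (fun M => X.β l * M * X.α l)

/-- a pair of matrix valued homomorphisms -/
def pair {G : Type} [Group G] (a b : G →* M2 A) : G →* M2 (A × A) where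
  toFun g := Matrix.of fun i j => (a g i j, b g i j)
  map_one' := by
    ext i j <;> fin_cases i <;> fin_cases j <;> simp
  map_mul' g h := by
    ext i j <;> simp [Matrix.mul_apply, Fin.sum_univ_two]

theorem blk_of_out [IsLocalRing O] (L : Pl O) (S : Dat O F) {G : Type} [Group G]
    [TopologicalSpace G] (j : G →* GQ) (hj : Continuous j) (l : ℕ)
    (hD : ∀ g, g ∈ L.D l ↔ ∃ x, j x = g)
    (hdet : ∀ (A : Type) [CommRing A] (X : Obj S A), Cnd L S X → ∀ g ∈ L.D l,
      (X.ρ g).det = X.ι (L.r g).det)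
    (k : ℕ) (s : F → O) (hs : ∀ x, S.red (s x) = x)
    (h : letI := S.red.toAlgebra; Loc2.OutG (Loc2.lb j S.rb) s (fun x => (L.r (j x)).det) k) :
    Blk2 L S l k := by
  let _ := S.red.toAlgebra
  obtain ⟨τ, ι, _, _, g, p, q, f, h1, h2, h3, h4, h5⟩ := h
  have hres : ∀ (A : Type) [CommRing A] (X : Obj S A) (x : G) (a b : Fin 2),
      X.π (lr X l (j x) a b - X.ι (s (Loc2.lb j S.rb x a b))) = 0 := by
    intro A _ X x a b
    rw [map_sub, X.alg, hs, sub_eq_zero]
    exact congrFun (congrFun (lres X l (j x)) a) b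
  have hlc : ∀ (A : Type) [CommRing A] (X : Obj S A), IsLocallyConstant ((lr X l).comp j) :=
    fun A _ X => (llc X l).comp_continuous hj
  refine ⟨τ, ι, inferInstance, inferInstance, fun t => j (g t), p, q,
    fun t => s (Loc2.lb j S.rb (g t) (p t) (q t)), f, h1, fun t => hs _,
    fun i => Loc2.red_zero hs ((CA.Cpl.mem_max_iff _).1 (h2 i)), h3, ?_, ?_, ?_⟩
  · intro Y hY hc h0 γ hγ
    obtain ⟨x, rfl⟩ := (hD γ).1 hγ
    have hf : ∀ y a b, (lr Y l (j y) a b).fst = Loc2.lb j S.rb y a b := fun y a b => by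
      rw [← hY.pi]
      exact congrFun (congrFun (lres Y l (j y)) a) b
    have hz : L2b.Z1 (Loc2.lb j S.rb) fun y => (lr Y l (j y)).map TrivSqZeroExt.snd := by
      refine ⟨(hlc _ Y).comp fun M : L2b.M2 (DualNumber F) => M.map TrivSqZeroExt.snd,
        fun y z => ?_, fun y => ?_⟩
      · ext a b
        simp only [map_mul j, map_mul (lr Y l), Matrix.map_apply, Matrix.mul_apply,
          Matrix.add_apply, Fin.sum_univ_two, TrivSqZeroExt.snd_add, DualNumber.snd_mul, hf]
        ring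
      · have h6 := congrArg TrivSqZeroExt.snd
          ((ldet Y l (j y)).trans ((hdet _ Y hc (j y) ((hD _).2 ⟨y, rfl⟩)).trans (hY.io _)))
        simp only [Matrix.det_fin_two, TrivSqZeroExt.snd_sub, DualNumber.snd_mul, hf,
          TrivSqZeroExt.snd_inl] at h6
        simp only [L2b.pd, Matrix.map_apply]
        linear_combination h6
    have h7 := h4 _ hz (fun t => by
      have h8 := congrArg TrivSqZeroExt.snd (h0 t)
      rw [hY.io, TrivSqZeroExt.snd_inl] at h8
      exact h8) x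
    refine Matrix.ext fun a b => ?_
    exact TrivSqZeroExt.ext (hf x a b) (congrFun (congrFun h7 a) b)
  · intro A _ X hc φ hC hX
    let _ := X.ι.toAlgebra
    have := X.fin
    have hL : L2b.Lift (Loc2.lb j S.rb) s (fun x => (L.r (j x)).det) ((lr X l).comp j) :=
      ⟨hlc A X, fun a ha => nil_res X ((X.alg a).trans (Loc2.red_zero hs ha)),
        fun x a b => nil_res X (hres A X x a b),
        fun x => (ldet X l (j x)).trans (hdet A X hc _ ((hD _).2 ⟨x, rfl⟩))⟩
    exact (h5 A ((lr X l).comp j) hL).2 ⟨φ, hC⟩ hX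
  · intro A _ X Y e1 _ hX hY hc γ hγ
    obtain ⟨x, rfl⟩ := (hD γ).1 hγ
    let _ := X.ι.toAlgebra
    have := X.fin
    have nil2 : ∀ a b : A, IsNilpotent a → IsNilpotent b → IsNilpotent ((a, b) : A × A) := by
      rintro a b ⟨m, hm⟩ ⟨n, hn⟩
      exact ⟨m + n, Prod.ext (by simp [pow_add, hm]) (by simp [pow_add, hn])⟩
    have hL : L2b.Lift (Loc2.lb j S.rb) s (fun x => (L.r (j x)).det)
        (pair ((lr X l).comp j) ((lr Y l).comp j)) := by
      refine ⟨((hlc A X).prodMk (hlc A Y)).comp fun M : M2 A × M2 A =>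
        (Matrix.of fun i k => (M.1 i k, M.2 i k) : M2 (A × A)), fun a ha => ?_, fun x a b => ?_,
        fun x => ?_⟩
      · have := nil_res X ((X.alg a).trans (Loc2.red_zero hs ha))
        exact nil2 _ _ this this
      · have k2 := nil_res Y (hres A Y x a b)
        rw [← e1] at k2
        exact nil2 _ _ (nil_res X (hres A X x a b)) k2
      · have d1 := (ldet X l (j x)).trans (hdet A X hX _ ((hD _).2 ⟨x, rfl⟩))
        have d2 := (ldet Y l (j x)).trans (hdet A Y hY _ ((hD _).2 ⟨x, rfl⟩))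
        rw [← e1] at d2
        rw [Matrix.det_fin_two] at d1 d2 ⊢
        exact Prod.ext d1 d2
    have hle : Algebra.adjoin O (Set.range (Loc2.coG (Loc2.lb j S.rb) s g p q
        (pair ((lr X l).comp j) ((lr Y l).comp j)))) ≤
        AlgHom.equalizer (AlgHom.fst O A A) (AlgHom.snd O A A) := by
      rw [Algebra.adjoin_le_iff]
      rintro _ ⟨t, rfl⟩
      exact congrArg (fun z => z - X.ι (s (Loc2.lb j S.rb (g t) (p t) (q t)))) (hc t)
    ext a b
    exact hle ((h5 (A × A) _ hL).1 x a b)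

end B27

theorem b22_of (h : Loc2.Two2) : B22 := by
  intro O F _ _ _ _ _ _ _ S L hL
  let _ := S.red.toAlgebra
  have hD : L.D 2 = (W.dec (L.P 2) : Set GQ) := if_neg (by norm_num)
  refine B27.blk_of_out L S (Loc2.jj 2) (Loc2.jj_cont 2) 2 (fun g => ?_)
    (fun A _ X hX g hg => hX.d2 g (by rwa [hD] at hg)) 6 (Function.surjInv S.surj)
    (Function.surjInv_eq S.surj) ?_
  · rw [hD, hL.h2]
    exact Loc2.range_jj 2 g
  · refine h F O (Loc2.lb (Loc2.jj 2) S.rb) _ _
      (((Loc2.lc_of_open S.rb hL.dh.opn).comp_continuous (Loc2.jj_cont 2)).comp (Units.coeHom _))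
      (fun x => ?_) (fun x => hL.det _) (Function.surjInv_eq S.surj) (fun x => ?_)
    · by_cases hx : Loc2.jj 2 x ∈ L.H
      · exact Or.inl (hL.dh.dg _ hx)
      · exact Or.inr (hL.dh.ad _ hx)
    · have e := hL.det (Loc2.jj 2 x)
      rw [← hL.lift, ← RingHom.mapMatrix_apply, ← RingHom.map_det] at e
      exact e

theorem b22 : B22 := b22_of L2c.two2

theorem b02 : B02 := by
  intro O F _ _ _ _ S L hL
  let _ := S.red.toAlgebra
  have hc := Loc2.conj_sq hL.cj
  have hD : L.D 0 = {1, L.c} := if_pos rfl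
  let H : Subgroup GQ :=
    { carrier := {1, L.c}
      one_mem' := Or.inl rfl
      mul_mem' := by
        rintro a b (rfl | rfl) (rfl | rfl)
        · exact Or.inl (mul_one _)
        · exact Or.inr (one_mul _)
        · exact Or.inr (mul_one _)
        · exact Or.inl hc
      inv_mem' := by
        rintro a (rfl | rfl)
        · exact Or.inl inv_one
        · exact Or.inr (inv_eq_of_mul_eq_one_right hc) }
  refine B27.blk_of_out L S H.subtype continuous_subtype_val 0 (fun g => ?_)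
    (fun A _ X hX g hg => ?_) 2 (Function.surjInv S.surj) (Function.surjInv_eq S.surj) ?_
  · rw [hD]
    exact ⟨fun hg => ⟨⟨g, hg⟩, rfl⟩, fun ⟨x, hx⟩ => hx ▸ x.2⟩
  · rw [hD] at hg
    rcases hg with rfl | rfl
    · rw [map_one, map_one, Matrix.det_one, Matrix.det_one, map_one]
    · rw [hX.dc, hL.odd, map_neg, map_one]
  · refine Loc2.inf2 H F O (Loc2.lb H.subtype S.rb) _ _ ⟨L.c, Or.inr rfl⟩ ?_ (Subtype.ext hc)
      (hL.det _) hL.odd (Function.surjInv_eq S.surj)
    rintro ⟨x, rfl | rfl⟩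
    · exact Or.inl rfl
    · exact Or.inr rfl

theorem bc2 : BC2 := by
  intro O F _ _ _ _ S L hL l hl A _ X Y e1 e2 x hx
  have hl' : l ∈ L.W ∪ L.C := Finset.mem_union_right _ hl
  have hT := hL.tm l hl'
  have hsq : ∀ g ∈ W.dec (L.P l), mx S.rb g * mx S.rb g = 1 := fun g hg =>
    P022D.Loc.BCA.sq_one (hL.uni l hl g hg) (hL.det g)
  have hl0 : l ≠ 0 := (hL.pr l hl').1.ne_zero
  rw [Pl.D, if_neg hl0] at hx
  obtain ⟨N, hN⟩ := hT.tame _ (X.ρ.prod Y.ρ) (by
    convert X.opn.inter Y.opn using 1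
    ext g
    exact Prod.ext_iff)
  have n1 := hN.comp (MonoidHom.fst _ _)
  have n2 := hN.comp (MonoidHom.snd _ _)
  obtain ⟨k, s, hs, e⟩ := hN.gen x hx
  obtain ⟨j, p, hp, rfl⟩ := hN.cyc s hs
  have w1 : X.ρ p = 1 :=
    P022D.Loc.BCA.wild X.π X.loc n1 (fun g hg => by
      show (X.ρ g).map X.π * (X.ρ g).map X.π = 1
      rw [X.res]; exact hsq g hg) hp
  have w2 : Y.ρ p = 1 :=
    P022D.Loc.BCA.wild Y.π Y.loc n2 (fun g hg => by
      show (Y.ρ g).map Y.π * (Y.ρ g).map Y.π = 1
      rw [Y.res]; exact hsq g hg) hp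
  have a1 : X.ρ x = X.ρ (L.φ l ^ k * L.τ l ^ j) := by
    have := congrArg Prod.fst e
    simp only [MonoidHom.prod_apply, map_mul, w1, Prod.fst_mul, mul_one] at this ⊢
    exact this
  have a2 : Y.ρ x = Y.ρ (L.φ l ^ k * L.τ l ^ j) := by
    have := congrArg Prod.snd e
    simp only [MonoidHom.prod_apply, map_mul, w2, Prod.snd_mul, mul_one] at this ⊢
    exact this
  rw [lr_apply, lr_apply, a1, a2, ← lr_apply, ← lr_apply, map_mul, map_mul, map_pow, map_pow,
    map_pow, map_pow, e1, e2]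

end Vale.Agent.P022S.Loc
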