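import Vale.Agent.P022S.Loc.Defs
import Vale.Agent.P022D.W.Pair

/-!
# P022S, dihedral case, block Loc: the block at a regular prime
-/

set_option linter.all false

noncomputable section

namespace Vale.Agent.P022S.Loc

open NumberField IsLocalRing
open Vale.Agent.P022 Vale.Agent.P022.H443 Vale.Agent.P022D Vale.Agent.P022S.R Vale.Agent.P022D.W
open Vale.Agent.P027M.S (mx)
open Vale.Agent.P022D.Sel (M2 IsDec)
open Vale.Agent.P022E.Loc (Pl Tm Rt En)

variable {O F : Type} [CommRing O] [Field F]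

/-- the residual representation with values in matrices -/
def rbm (S : Dat O F) : GQ →* Mt F := (Units.coeHom _).comp S.rb

theorem OkG.wd [IsLocalRing O] [CharP F 2] {L : Pl O} {S : Dat O F} (h : OkG L S) {l : ℕ}
    (hl : l ∈ L.W) : WD l (dec (L.P l)) L.H (L.g0 l) (rbm S) :=
  have hp := h.pr l (Finset.mem_union_left _ hl)
  ⟨hp.1.odd_of_ne_two hp.2, CharTwo.two_eq_zero, h.dh.dg, h.dh.ad, (h.reg l hl).1,
    (h.reg l hl).2.1, (h.reg l hl).2.2⟩

variable {S : Dat O F} {A : Type} [CommRing A]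

theorem lr_eq (X : Obj S A) (l : ℕ) :
    lr X l = (cjH (X.α l) (X.β l) (X.inv l) (mul_eq_one_comm.1 (X.inv l))).comp X.ρ := rfl

theorem lr_lift (X : Obj S A) (l : ℕ) : Lift X.π (rbm S) (lr X l) :=
  Lift.cj (ρ := X.ρ) (rb := rbm S) X.res (X.inv l) (mul_eq_one_comm.1 (X.inv l)) (X.one l)

theorem lr_tr (X : Obj S A) (l : ℕ) (g : GQ) : (lr X l g).trace = (X.ρ g).trace :=
  congrFun (trc_cj X.ρ _ _ (X.inv l) (mul_eq_one_comm.1 (X.inv l))) g

theorem lr_dt (X : Obj S A) (l : ℕ) (g : GQ) : (lr X l g).det = (X.ρ g).det :=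
  congrFun (dtm_cj X.ρ _ _ (X.inv l) (mul_eq_one_comm.1 (X.inv l))) g

theorem Obj.lrr (X : Obj S A) : LR X.π := by
  have := X.fin
  exact LR.of_finite X.π X.loc

/-- if `σ g0` is diagonal the equation `En` names the first entry of `σ s` -/
theorem en_diag {π : A →+* F} (loc : ∀ a, π a ≠ 0 → IsUnit a) {σ : GQ →* M2 A} {g0 s : GQ}
    (h01 : σ g0 0 1 = 0) (h10 : σ g0 1 0 = 0) (hne : π (σ g0 0 0) ≠ π (σ g0 1 1)) {y a : A}
    (hr : Rt σ g0 y) (hy : π y = π (σ g0 1 1)) (he : En σ g0 s y a) :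
    y = σ g0 1 1 ∧ σ s 0 0 = a := by
  simp only [Rt, En, map_mul, Matrix.trace_fin_two, Matrix.det_fin_two, Matrix.mul_apply,
    Fin.sum_univ_two, h01, h10] at hr he
  have u1 : IsUnit (y - σ g0 0 0) := loc _ (by rw [map_sub, hy, sub_ne_zero]; exact hne.symm)
  have e : y = σ g0 1 1 := u1.mul_left_cancel (by linear_combination hr)
  have u2 : IsUnit (σ g0 0 0 - σ g0 1 1) := loc _ (by rw [map_sub, sub_ne_zero]; exact hne)
  rw [e] at he
  exact ⟨e, u2.mul_left_cancel (by linear_combination he)⟩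

theorem bw : BW := by
  intro O F _ _ _ _ S L h l hl
  have hW := h.wd hl
  have hl' : l ∈ L.W ∪ L.C := Finset.mem_union_left _ hl
  choose s hs using S.surj
  refine ⟨Fin 4, Empty, inferInstance, inferInstance, cg L.H (L.g0 l) (L.τ l) (L.φ l),
    cp L.H (L.τ l), cq L.H (L.τ l) (L.φ l), fun t => s (mx S.rb _ _ _), fun i => i.elim, by simp,
    fun t => hs _, fun i => i.elim, fun _ _ _ _ _ _ _ _ _ _ _ _ _ _ _ =>
      Or.inl fun _ _ i => i.elim, ?_, fun _ _ _ _ _ _ _ i => i.elim⟩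
  intro Y hY hC hc x hx
  rw [Pl.D, if_neg (h.pr l hl').1.ne_zero] at hx
  let j : F →+* DualNumber F := (TrivSqZeroExt.inlHom F F)
  let r : GQ →* Mt (DualNumber F) := j.mapMatrix.toMonoidHom.comp (rbm S)
  have hr : ∀ g a b, r g a b = TrivSqZeroExt.inl (rbm S g a b) := fun _ _ _ => rfl
  have l1 := lr_lift Y l
  have l2 : Lift Y.π (rbm S) r := fun g => by
    ext a b; rw [Matrix.map_apply, hY.pi, hr]; rfl
  have cst : ∀ c, Y.ι c = TrivSqZeroExt.inl (Y.π (Y.ι c)) := fun c => by rw [Y.alg, hY.io]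
  have hc' : ∀ t, lr Y l (cg L.H (L.g0 l) (L.τ l) (L.φ l) t) (cp L.H (L.τ l) t)
      (cq L.H (L.τ l) (L.φ l) t) = r (cg L.H (L.g0 l) (L.τ l) (L.φ l) t) (cp L.H (L.τ l) t)
      (cq L.H (L.τ l) (L.φ l) t) := fun t => by rw [hc, hY.io, hs, hr]; rfl
  have r01 : r (L.g0 l) 0 1 = 0 := by rw [hr, (hW.dg _ hW.g0H).1]; rfl
  have r10 : r (L.g0 l) 1 0 = 0 := by rw [hr, (hW.dg _ hW.g0H).2]; rfl
  have c0 : lr Y l (L.g0 l) 0 1 = 0 := (hc' 0).trans r01
  have c1 : lr Y l (L.g0 l) 1 0 = 0 := (hc' 1).trans r10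
  have := galQb
  obtain ⟨N, hT⟩ := (h.tm l hl').tame _ ((lr Y l).prod r) (by
    have e : {g : GQ | ((lr Y l).prod r) g = 1} ⊇ {g | Y.ρ g = 1} := by
      intro g hg
      have e1 : lr Y l g = 1 := by
        rw [lr_apply, hg, mul_one]; exact mul_eq_one_comm.1 (Y.inv l)
      have e2 : rbm S g = 1 := by
        rw [← l1 g, e1]; exact Matrix.map_one _ (map_zero _) (map_one _)
      exact Prod.ext e1 (show j.mapMatrix (rbm S g) = 1 by rw [e2, map_one])
    have := Subgroup.isOpen_mono (H₁ := Y.ρ.toHomUnits.ker) (H₂ := ((lr Y l).prod r).toHomUnits.ker)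
      (fun g hg => Units.ext (e (congrArg Units.val hg))) (by
        convert Y.opn using 1
        exact Set.ext fun g => Units.ext_iff)
    convert this using 1
    exact Set.ext fun g => ⟨fun e => Units.ext e, fun e => congrArg Units.val e⟩)
  have h2 : Two Y.π l _ _ N L.H (L.τ l) (L.φ l) (L.g0 l) (rbm S) (lr Y l) r :=
    ⟨hW, Obj.lrr Y, l1, l2, mon hW (Obj.lrr Y) l1 (hT.comp (MonoidHom.fst _ _)) c0 c1,
      mon hW (Obj.lrr Y) l2 (hT.comp (MonoidHom.snd _ _)) r01 r10, hT⟩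
  have hd : (lr Y l (L.τ l)).det = (r (L.τ l)).det := by
    have e := hC.dl l hl'
    rw [← lr_dt Y l] at e
    rw [e, cst, ← e, RingHom.map_det, RingHom.mapMatrix_apply, l1]
    exact j.map_det _
  refine h2.rigid (fun t ht htH i => ?_) hc' hx
  by_cases hτ : L.τ l ∈ L.H
  · obtain ⟨y, y1, y2, y3⟩ := hC.ty l hl
    simp only [Rt, En, ← lr_tr Y l, ← lr_dt Y l] at y1 y3
    have e := (en_diag Y.loc c0 c1 (by rw [l1.ent, l1.ent]; exact hW.ne) y1
      (by rw [l1.ent]; exact y2) y3).2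
    have e0 : lr Y l (L.τ l) 0 0 = r (L.τ l) 0 0 := by rw [e, cst, ← e, l1.ent, hr]
    have hD := hT.ID hT.tau
    have e1 : lr Y l (L.τ l) 1 1 = r (L.τ l) 1 1 := by
      rw [Matrix.det_fin_two, Matrix.det_fin_two, h2.m1.off _ hD hτ 0 1 (by decide),
        h2.m2.off _ hD hτ 0 1 (by decide), e0] at hd
      exact (h2.unit hτ 0).mul_left_cancel (by linear_combination hd)
    refine h2.gen_in hτ i ?_ ht
    fin_cases i
    · exact e0
    · exact e1
  · exact h2.gen_out hτ hd ht htH i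

end Vale.Agent.P022S.Loc
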