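import Vale.Agent.P022S.Loc.Det

/-!
# P022S, block Loc: blocks with determination (statements)
-/

set_option linter.all false

noncomputable section

namespace Vale.Agent.P022S.Loc

open NumberField IsLocalRing
open Vale.Agent.P022 Vale.Agent.P022.H443 Vale.Agent.P022D Vale.Agent.P022S.R
open Vale.Agent.P027M.S (mx)
open Vale.Agent.P022D.Sel (M2 IsDec)
open Vale.Agent.P022E.Loc (Pl Tm Rt En)

variable {O F : Type} [CommRing O] [Field F]

/-- the entries `(g t, p t, q t)` determine the local representation at `l` -/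
def Dt {τ : Type} (L : Pl O) (S : Dat O F) (l : ℕ) (g : τ → GQ) (p q : τ → Fin 2) : Prop :=
  ∀ (A : Type) [CommRing A] (X Y : Obj S A), X.ι = Y.ι → X.π = Y.π → Cnd L S X → Cnd L S Y →
    (∀ t, lr X l (g t) (p t) (q t) = lr Y l (g t) (p t) (q t)) →
    ∀ x ∈ L.D l, lr X l x = lr Y l x

/-- a good block with determination -/
def Blk2 (L : Pl O) (S : Dat O F) (l k : ℕ) : Prop :=
  ∃ (τ ι : Type) (_ : Fintype τ) (_ : Fintype ι) (g : τ → GQ) (p q : τ → Fin 2) (c : τ → O)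
    (f : ι → MvPowerSeries τ O), Fintype.card τ = Fintype.card ι + k ∧
    (∀ t, S.red (c t) = mx S.rb (g t) (p t) (q t)) ∧
    (∀ i, S.red (MvPowerSeries.constantCoeff (f i)) = 0) ∧
    CA.BlkPt (fun i => MvPowerSeries.map S.red (f i)) ∧
    (∀ Y : Obj S (DualNumber F), Std Y → Cnd L S Y →
      (∀ t, lr Y l (g t) (p t) (q t) = Y.ι (c t)) →
      ∀ x ∈ L.D l, lr Y l x = (mx S.rb x).map TrivSqZeroExt.inl) ∧
    (∀ (A : Type) [CommRing A] (X : Obj S A), Cnd L S X → ∀ ψ : MvPowerSeries τ O →+* A,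
      (∀ o, ψ (MvPowerSeries.C o) = X.ι o) →
      (∀ t, ψ (MvPowerSeries.X t) = lr X l (g t) (p t) (q t) - X.ι (c t)) → ∀ i, ψ (f i) = 0) ∧
    Dt L S l g p q

def B22 : Prop := ∀ (O F : Type) [CommRing O] [IsLocalRing O] [IsNoetherianRing O]
  [IsAdicComplete (maximalIdeal O) O] [Field F] [Finite F] [CharP F 2] (S : Dat O F) (L : Pl O),
  OkG L S → Blk2 L S 2 6

def B02 : Prop := ∀ (O F : Type) [CommRing O] [IsLocalRing O] [Field F] [CharP F 2]
  (S : Dat O F) (L : Pl O), OkG L S → Blk2 L S 0 2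

def BW2 : Prop := ∀ (O F : Type) [CommRing O] [IsLocalRing O] [Field F] [CharP F 2]
  (S : Dat O F) (L : Pl O), OkG L S → ∀ l ∈ L.W, Blk2 L S l 4

def BC2 : Prop := ∀ (O F : Type) [CommRing O] [IsLocalRing O] [Field F] [CharP F 2]
  (S : Dat O F) (L : Pl O), OkG L S → ∀ l ∈ L.C, ∀ (A : Type) [CommRing A] (X Y : Obj S A),
  lr X l (L.φ l) = lr Y l (L.φ l) → lr X l (L.τ l) = lr Y l (L.τ l) →
    ∀ x ∈ L.D l, lr X l x = lr Y l x

end Vale.Agent.P022S.Loc
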