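import Vale.Agent.P022G.Loc.Det0
import Vale.Agent.P022S.Loc.Det2
import Vale.Agent.P022S.Loc.BW

/-!
# P022S, block Loc: the block at a regular prime, with determination
-/

set_option linter.all false

noncomputable section

namespace Vale.Agent.P022S.Loc

open NumberField IsLocalRing
open Vale.Agent.P022 Vale.Agent.P022.H443 Vale.Agent.P022D Vale.Agent.P022S.R Vale.Agent.P022D.W
open Vale.Agent.P027M.S (mx)
open Vale.Agent.P022D.Sel (M2 IsDec)
open Vale.Agent.P022E.Loc (Pl Tm Rt En)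

variable {O F : Type} [CommRing O] [Field F]

theorem opn_prod {Γ : Type} [Monoid Γ] {A B : Type} [CommRing A] [CommRing B] (ρ : GQ →* M2 A)
    (ρ' : GQ →* M2 B) (h : IsOpen {g | ρ g = 1}) (h' : IsOpen {g | ρ' g = 1}) (f : GQ →* Γ)
    (hf : ∀ g, ρ g = 1 → ρ' g = 1 → f g = 1) : IsOpen {g | f g = 1} := by
  have := galQb
  have h1 := Subgroup.isOpen_mono (H₁ := ρ.toHomUnits.ker ⊓ ρ'.toHomUnits.ker)
    (H₂ := f.toHomUnits.ker)
    (fun g hg => Units.ext (hf g (congrArg Units.val hg.1) (congrArg Units.val hg.2))) (by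
      convert h.inter h' using 1
      exact Set.ext fun g => and_congr Units.ext_iff Units.ext_iff)
  convert h1 using 1
  exact Set.ext fun g => ⟨fun e => Units.ext e, fun e => congrArg Units.val e⟩

theorem dtW [IsLocalRing O] [CharP F 2] {S : Dat O F} {L : Pl O} (h : OkG L S) {l : ℕ}
    (hl : l ∈ L.W) : Dt L S l (cg L.H (L.g0 l) (L.τ l) (L.φ l)) (cp L.H (L.τ l))
      (cq L.H (L.τ l) (L.φ l)) := by
  intro A _ X Y hι hπ hX hY hc x hx
  have hW := h.wd hl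
  have hl' : l ∈ L.W ∪ L.C := Finset.mem_union_left _ hl
  rw [Pl.D, if_neg (h.pr l hl').1.ne_zero] at hx
  have := X.fin
  obtain ⟨N, hT⟩ := (h.tm l hl').tame _ ((lr X l).prod (lr Y l))
    (opn_prod X.ρ Y.ρ X.opn Y.opn _ fun g e1 e2 => Prod.ext
      (show lr X l g = 1 by rw [lr_apply, e1, mul_one]; exact mul_eq_one_comm.1 (X.inv l))
      (show lr Y l g = 1 by rw [lr_apply, e2, mul_one]; exact mul_eq_one_comm.1 (Y.inv l)))
  let D := dec (L.P l)
  have hW' : WD l ⊤ (L.H.subgroupOf D) ⟨L.g0 l, hW.g0D⟩ ((rbm S).comp D.subtype) :=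
    ⟨hW.odd, hW.two, fun g hg => hW.dg g hg, fun g hg => hW.ad g hg, trivial, hW.g0H, hW.ne⟩
  refine P022G.Loc.Dt.detW hW' X.π X.loc ((lr X l).comp D.subtype) ((lr Y l).comp D.subtype)
    (fun g => lr_lift X l g) (fun g => hπ ▸ lr_lift Y l g) (P022E.Loc.tame_res hT) ?_
    (X.ι (L.a l)) ?_ ?_ (fun t => ?_) ⟨x, hx⟩
  · show (lr X l (L.τ l)).det = (lr Y l (L.τ l)).det
    rw [lr_dt, lr_dt, hX.dl l hl', hY.dl l hl', hι]
  · obtain ⟨y, y1, y2, y3⟩ := hX.ty l hl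
    simp only [Rt, En, ← lr_tr X l, ← lr_dt X l] at y1 y3
    exact ⟨y, y1, y2, y3⟩
  · obtain ⟨y, y1, y2, y3⟩ := hY.ty l hl
    simp only [Rt, En, ← lr_tr Y l, ← lr_dt Y l] at y1 y3
    exact ⟨y, y1, hπ ▸ y2, hι ▸ y3⟩
  · have h1 := hc t
    by_cases hτ : L.τ l ∈ L.H <;> by_cases hφ : L.φ l ∈ L.H <;> fin_cases t <;>
      simpa [cg, cp, cq, hτ, hφ, Subgroup.mem_subgroupOf] using h1

theorem bw2 : BW2 := by
  intro O F _ _ _ _ S L h l hl
  have hl' : l ∈ L.W ∪ L.C := Finset.mem_union_left _ hl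
  choose s hs using S.surj
  refine ⟨Fin 4, Empty, inferInstance, inferInstance, cg L.H (L.g0 l) (L.τ l) (L.φ l),
    cp L.H (L.τ l), cq L.H (L.τ l) (L.φ l), fun t => s (mx S.rb _ _ _), fun i => i.elim, by simp,
    fun t => hs _, fun i => i.elim, fun _ _ _ _ _ _ _ _ _ _ _ _ _ _ _ =>
      Or.inl fun _ _ i => i.elim, ?_, fun _ _ _ _ _ _ _ i => i.elim, dtW h hl⟩
  intro Y hY hC hc x hx
  have hW := h.wd hl
  rw [Pl.D, if_neg (h.pr l hl').1.ne_zero] at hx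
  have := Y.fin
  let j : F →+* DualNumber F := (TrivSqZeroExt.inlHom F F)
  let r : GQ →* Mt (DualNumber F) := j.mapMatrix.toMonoidHom.comp (rbm S)
  have hr : ∀ g a b, r g a b = TrivSqZeroExt.inl (rbm S g a b) := fun _ _ _ => rfl
  have l1 := lr_lift Y l
  have l2 : Lift Y.π (rbm S) r := fun g => by
    ext a b; rw [Matrix.map_apply, hY.pi, hr]; rfl
  obtain ⟨N, hT⟩ := (h.tm l hl').tame _ ((lr Y l).prod r)
    (opn_prod Y.ρ Y.ρ Y.opn Y.opn _ fun g e1 _ => by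
      have e : lr Y l g = 1 := by
        rw [lr_apply, e1, mul_one]; exact mul_eq_one_comm.1 (Y.inv l)
      have e2 : rbm S g = 1 := by
        rw [← l1 g, e]; exact Matrix.map_one _ (map_zero _) (map_one _)
      exact Prod.ext e (show j.mapMatrix (rbm S g) = 1 by rw [e2, map_one]))
  let D := dec (L.P l)
  have hW' : WD l ⊤ (L.H.subgroupOf D) ⟨L.g0 l, hW.g0D⟩ ((rbm S).comp D.subtype) :=
    ⟨hW.odd, hW.two, fun g hg => hW.dg g hg, fun g hg => hW.ad g hg, trivial, hW.g0H, hW.ne⟩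
  let k : DualNumber F →+* DualNumber F := j.comp Y.π
  have hk : ∀ g, (lr Y l g).map k = r g := fun g => by
    show (lr Y l g).map (j ∘ Y.π) = _
    rw [← Matrix.map_map, l1 g]; rfl
  have hkι : ∀ c, k (Y.ι c) = Y.ι c := fun c => by
    show j (Y.π (Y.ι c)) = _
    rw [Y.alg, hY.io]; rfl
  have hkd : ∀ g, (r g).det = k (lr Y l g).det := fun g => by
    rw [RingHom.map_det, RingHom.mapMatrix_apply, hk]
  have hkt : ∀ g, (r g).trace = k (lr Y l g).trace := fun g => by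
    rw [← hk]; simp [Matrix.trace_fin_two]
  obtain ⟨y, y1, y2, y3⟩ := hC.ty l hl
  simp only [Rt, En, ← lr_tr Y l, ← lr_dt Y l] at y1 y3
  refine P022G.Loc.Dt.detW hW' Y.π Y.loc ((lr Y l).comp D.subtype) (r.comp D.subtype)
    (fun g => l1 g) (fun g => l2 g) (P022E.Loc.tame_res hT) ?_ (Y.ι (L.a l)) ⟨y, y1, y2, y3⟩
    ⟨k y, ?_, ?_, ?_⟩ (fun t => ?_) ⟨x, hx⟩
  · show (lr Y l (L.τ l)).det = (r (L.τ l)).det
    rw [hkd, lr_dt, hC.dl l hl', hkι]
  · show k y ^ 2 - (r (L.g0 l)).trace * k y + (r (L.g0 l)).det = 0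
    rw [hkt, hkd, ← map_pow, ← map_mul, ← map_sub, ← map_add, y1, map_zero]
  · show Y.π (j (Y.π y)) = _
    rw [hY.pi, y2]; rfl
  · show (r (L.τ l * L.g0 l)).trace - k y * (r (L.τ l)).trace =
      Y.ι (L.a l) * ((r (L.g0 l)).trace - 2 * k y)
    have := congrArg k y3
    rw [map_sub, map_mul k, map_mul k, map_sub, map_mul k, map_ofNat, hkι] at this
    rw [hkt, hkt, hkt]
    exact this
  · have h1 : lr Y l (cg L.H (L.g0 l) (L.τ l) (L.φ l) t) (cp L.H (L.τ l) t)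
        (cq L.H (L.τ l) (L.φ l) t) = r (cg L.H (L.g0 l) (L.τ l) (L.φ l) t) (cp L.H (L.τ l) t)
        (cq L.H (L.τ l) (L.φ l) t) := by rw [hc, hY.io, hs, hr]; rfl
    by_cases hτ : L.τ l ∈ L.H <;> by_cases hφ : L.φ l ∈ L.H <;> fin_cases t <;>
      simpa [cg, cp, cq, hτ, hφ, Subgroup.mem_subgroupOf] using h1

end Vale.Agent.P022S.Loc
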