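import Vale.Agent.P022S.Loc.Glue
import Vale.Agent.P022S.Loc.Det2

/-!
# P022S, block Loc: the assembly of the local blocks, with determination
-/

set_option linter.all false

noncomputable section

namespace Vale.Agent.P022S.Loc

open NumberField IsLocalRing MvPowerSeries
open Vale.Agent.P022 Vale.Agent.P022.H443 Vale.Agent.P022D Vale.Agent.P022S.R
open Vale.Agent.P027M.S (mx)
open Vale.Agent.P022D.Sel (M2 IsDec)
open Vale.Agent.P022E.Loc (Pl Tm Rt En)
open GlueP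

theorem cc_inj {A : Type} [CommRing A] {M N M' N' : M2 A} {b n : A}
    (h : ∀ i, cc M N b n i = cc M' N' b n i) : M = M' ∧ N = N' := by
  have h0 := sub_left_inj.1 (h 0)
  have h1 := sub_left_inj.1 (h 1)
  have h2 : M 1 0 = M' 1 0 := h 2
  have h3 := sub_left_inj.1 (h 3)
  have h4 := sub_left_inj.1 (h 4)
  have h5 := sub_left_inj.1 (h 5)
  have h6 : N 1 0 = N' 1 0 := h 6
  have h7 := sub_left_inj.1 (h 7)
  constructor
  · rw [Matrix.eta_fin_two M, h0, h1, h2, h3, ← Matrix.eta_fin_two]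
  · rw [Matrix.eta_fin_two N, h4, h5, h6, h7, ← Matrix.eta_fin_two]

theorem cv_inj {O F A : Type} [CommRing O] [Field F] {S : Dat O F} [CommRing A] {X Y : Obj S A}
    (e : X.ι = Y.ι) (l : ℕ) {u v : M2 O} (h : u * v = 1) {g : GQ}
    (k : cv X l u v g = cv Y l u v g) : lr X l g = lr Y l g := by
  rw [cv, cv, e] at k
  have h4 := congrArg (fun M => v.map Y.ι * M * u.map Y.ι) k
  simp only [mul_assoc, (uv Y.ι h).2, mul_one] at h4
  simp only [← mul_assoc, (uv Y.ι h).2, one_mul] at h4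
  exact h4

theorem locg2_of (hC : CLO) (h2 : B22) (h0 : B02) (hW : BW2) (hB : BC) (hB2 : BC2) : LOCG2 := by
  intro O F _ _ _ _ _ _ _ S L ϖ hϖ hL
  classical
  have hpr : ∀ l ∈ L.W ∪ L.C, l ≠ 0 ∧ l ≠ 2 := fun l hl =>
    ⟨(hL.pr l hl).1.ne_zero, (hL.pr l hl).2⟩
  have hdec : ∀ l ∈ S.T, IsDec l (L.D l) := by
    intro l hl
    rw [hL.hT, Finset.mem_insert, Finset.mem_insert] at hl
    rcases hl with rfl | rfl | hl
    · exact Or.inl ⟨rfl, L.c, hL.cj, if_pos rfl⟩
    · refine Or.inr ⟨Nat.prime_two, L.P 2, ?_, ?_, if_neg (by norm_num)⟩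
      · rw [hL.h2]; exact Loc2.PP_prime 2
      · rw [hL.h2]; exact Loc2.p_mem_PP 2
    · exact Or.inr ⟨(hL.pr l hl).1, L.P l, (hL.hP l hl).1, (hL.hP l hl).2, if_neg (hpr l hl).1⟩
  let B : Finset ℕ := insert 0 (insert 2 L.W)
  have hBl : ∀ b : B, Blk2 L S b (kk b) := by
    rintro ⟨b, hb⟩
    rw [Finset.mem_insert, Finset.mem_insert] at hb
    rcases hb with rfl | rfl | hb
    · exact h0 O F S L hL
    · exact h2 O F S L hL
    · have h := hpr b (Finset.mem_union_left _ hb)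
      show Blk2 L S b (kk b)
      rw [kk, if_neg h.1, if_neg h.2]
      exact hW O F S L hL b hb
  choose τ ι iτ iι g p q c f hcard hc hconst hblk htan hvan hdt using hBl
  have hCl := fun γ : L.C => hB O F S L hL γ γ.2
  choose u v b n huv hφ hτ using fun γ : L.C => (hCl γ).1
  have h2a := fun γ : L.C => two_adic (hL.pr γ (Finset.mem_union_right _ γ.2)).1
    (hL.pr γ (Finset.mem_union_right _ γ.2)).2
  choose a ha using fun γ : L.C => (h2a γ).1
  choose a' ha' using fun γ : L.C => (h2a γ).2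
  let K : Kx O B τ ι L.C :=
    { l := fun s => s.1
      g := fun s => g s.1 s.2
      p := fun s => p s.1 s.2
      q := fun s => q s.1 s.2
      c := fun s => c s.1 s.2
      f := f
      u := u
      v := v
      s := fun _ => 1
      b := b
      n := n
      ξ := fun γ => (L.r (L.τ γ)).det
      a := a
      a' := a' }
  have κr : ∀ (A : Type) [CommRing A] (X : Obj S A) (γ : L.C) (i : Fin 8),
      K.crd L S A X (Sum.inr (γ, i)) = cc (cv X γ (u γ) (v γ) (L.φ γ))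
        (cv X γ (u γ) (v γ) (L.τ γ)) (X.ι (b γ)) (X.ι (n γ)) i := fun A _ X γ i =>
    e8_one X.ι _ _ _ _ i
  refine ⟨B, τ, ι, inferInstance, iτ, iι, K, ⟨hC O F S L hL, hdec, ⟨?_, ?_, ?_⟩, fun t => ?_, huv,
    ?_, fun σ' => ⟨S.surj, ?_, hconst, hblk, fun γ => ?_, fun γ => ?_, ha, ha'⟩,
    fun γ => one_of (huv γ) (hτ γ), fun γ => ⟨rfl, (hCl γ).2.2.2⟩,
    fun σ' A _ X hX ψ hψC hψX => ?_⟩, fun A _ X Y e1 e2 hX hY hκ l hl x hx => ?_⟩
  · rintro A A' _ _ X Y w h - (s | s)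
    · show w (lr X s.1 (g s.1 s.2) (p s.1 s.2) (q s.1 s.2) - X.ι (c s.1 s.2)) =
        lr Y s.1 (g s.1 s.2) (p s.1 s.2) (q s.1 s.2) - Y.ι (c s.1 s.2)
      rw [map_sub, h.ι, ← lr_hom h]; rfl
    · obtain ⟨γ, i⟩ := s
      rw [κr, κr, cc_map, cv_hom h, cv_hom h, h.ι, h.ι]
  · rintro A _ X - (s | s)
    · show X.π (lr X s.1 (g s.1 s.2) (p s.1 s.2) (q s.1 s.2) - X.ι (c s.1 s.2)) = 0
      rw [map_sub, X.alg, hc, ← lr_res X s.1]
      exact sub_self _
    · obtain ⟨γ, i⟩ := s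
      rw [κr, cc_map, cv_res, cv_res, hφ, hτ, X.alg, X.alg, cc_zero]
  · intro Y y1 y2 hY hκ l hl x hx
    have hs : Std Y := ⟨y1, y2⟩
    by_cases hlB : l ∈ B
    · exact htan ⟨l, hlB⟩ Y hs hY (fun t => sub_eq_zero.1 (hκ (Sum.inl ⟨⟨l, hlB⟩, t⟩))) x hx
    · have hlC : l ∈ L.C := by
        rw [hL.hT] at hl
        simp only [B, Finset.mem_insert, Finset.mem_union, not_or] at hl hlB
        tauto
      obtain ⟨e1, e2⟩ := of_cc (M := cv Y l (u ⟨l, hlC⟩) (v ⟨l, hlC⟩) (L.φ l))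
        (N := cv Y l (u ⟨l, hlC⟩) (v ⟨l, hlC⟩) (L.τ l)) (b := Y.ι (b ⟨l, hlC⟩))
        (n := Y.ι (n ⟨l, hlC⟩)) fun i => (κr _ Y ⟨l, hlC⟩ i).symm.trans (hκ (Sum.inr (⟨l, hlC⟩, i)))
      exact (hCl ⟨l, hlC⟩).2.2.1 Y hs (lr_const hs l (huv _) _ _ (hφ _) e1)
        (lr_const hs l (huv _) _ _ (hτ _) e2) x hx
  · have := t.1.2
    rw [hL.hT]
    show (t.1 : ℕ) ∈ _
    simp only [B, Finset.mem_insert, Finset.mem_union] at this ⊢
    tauto
  · have hW0 : ∀ l ∈ L.W, kk l = 4 := fun l hl => by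
      have h := hpr l (Finset.mem_union_left _ hl)
      rw [kk, if_neg h.1, if_neg h.2]
    have n2 : 2 ∉ L.W ∪ L.C := fun h => (hpr 2 h).2 rfl
    have n0 : 0 ∉ L.W ∪ L.C := fun h => (hpr 0 h).1 rfl
    have hk : ∑ b : B, kk b = 8 + 4 * L.W.card := by
      rw [Finset.sum_coe_sort B kk, Finset.sum_insert, Finset.sum_insert,
        Finset.sum_congr rfl hW0, Finset.sum_const, smul_eq_mul]
      · simp only [kk]; norm_num; ring
      · exact fun h => n2 (Finset.mem_union_left _ h)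
      · rw [Finset.mem_insert, not_or]
        exact ⟨by norm_num, fun h => n0 (Finset.mem_union_left _ h)⟩
    have hT : S.T.card = 2 + L.W.card + L.C.card := by
      rw [hL.hT, Finset.card_insert_of_notMem, Finset.card_insert_of_notMem n2,
        Finset.card_union_of_disjoint hL.dj]
      · ring
      · rw [Finset.mem_insert, not_or]
        exact ⟨by norm_num, n0⟩
    rw [Fintype.card_sigma, Fintype.card_sigma, Finset.sum_congr rfl fun b _ => hcard b,
      Finset.sum_add_distrib, hk, hT]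
    ring
  · rw [← hϖ.maximalIdeal_eq]
    exact Ideal.ext fun c => hL.ker c
  · show S.red 1 ≠ 0
    rw [map_one]; exact one_ne_zero
  · show S.red (L.r (L.τ γ)).det = 1
    rw [RingHom.map_det, ← hL.det (L.τ γ), ← hL.lift]; rfl
  · let D := K.D (fun γ => (γ : ℕ)) σ'
    have hm : ∀ γ : L.C, (D.Φ γ).map ψ = cv X γ (u γ) (v γ) (L.φ γ) ∧
        (D.T γ).map ψ = cv X γ (u γ) (v γ) (L.τ γ) := fun γ =>
      mP_map ψ X.ι hψC (D.x γ) _ _ (b γ) (n γ) fun k =>
        (hψX (Sum.inr (γ, k))).trans (κr A X γ k)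
    refine sup_le (sup_le ?_ ?_) ?_
    · rw [Ideal.span_le]
      rintro _ ⟨s, rfl⟩
      exact hvan s.1 A X hX (ψ.comp (rename (R := O) (CA.emb D.eg s.1)).toRingHom)
        (fun o => (congrArg ψ (rename_C _ o)).trans (hψC o))
        (fun t => (congrArg ψ (rename_X _ t)).trans (hψX (Sum.inl ⟨s.1, t⟩))) s.2
    · rw [Ideal.span_le]
      rintro _ ⟨s, rfl⟩
      have e : ψ.mapMatrix (D.Φ s.1 * D.T s.1 - D.T s.1 ^ D.l s.1 * D.Φ s.1) = 0 := by
        rw [map_sub, map_mul, map_mul, map_pow, RingHom.mapMatrix_apply, RingHom.mapMatrix_apply,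
          (hm _).1, (hm _).2, sub_eq_zero]
        have e1 := (hCl s.1).2.1 A X
        rw [← map_pow, ← map_mul, ← map_mul] at e1
        have e2 := cv_congr X s.1 (u s.1) (v s.1) e1
        change cvh X s.1 (huv s.1) _ = cvh X s.1 (huv s.1) _ at e2
        rw [map_mul, map_mul, map_pow] at e2
        exact e2
      exact congrFun (congrFun e s.2.1) s.2.2
    · rw [Ideal.span_le]
      rintro _ ⟨γ, rfl⟩
      show ψ ((D.T γ).det - C (D.ξ γ)) = 0
      rw [map_sub, RingHom.map_det, RingHom.mapMatrix_apply, (hm γ).2, cv_det X _ (huv γ), hψC,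
        hX.dl γ (Finset.mem_union_right _ γ.2)]
      exact sub_self _
  · by_cases hlB : l ∈ B
    · refine hdt ⟨l, hlB⟩ A X Y e1 e2 hX hY (fun t => ?_) x hx
      have : lr X l (g ⟨l, hlB⟩ t) (p _ t) (q _ t) - X.ι (c _ t) =
          lr Y l (g ⟨l, hlB⟩ t) (p _ t) (q _ t) - Y.ι (c _ t) :=
        congrFun hκ (Sum.inl ⟨⟨l, hlB⟩, t⟩)
      rwa [e1, sub_left_inj] at this
    · have hlC : l ∈ L.C := by
        rw [hL.hT] at hl
        simp only [B, Finset.mem_insert, Finset.mem_union, not_or] at hl hlB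
        tauto
      have k0 := fun i => congrFun hκ (Sum.inr (⟨l, hlC⟩, i))
      simp only [κr] at k0
      rw [e1] at k0
      obtain ⟨k1, k2⟩ := cc_inj k0
      exact hB2 O F S L hL l hlC A X Y (cv_inj e1 l (huv _) k1) (cv_inj e1 l (huv _) k2) x hx

end Vale.Agent.P022S.Loc
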